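import Vale.Agent.P269CW.Spec
import Vale.Agent.P269CL.Main
import Vale.Agent.P269CG.TauRow
import Vale.Agent.P269CG.Calc

/-! Row ANA: the degree of the Hodge bundle of the weighted projective line. -/

set_option linter.all false

noncomputable section

namespace Vale.Agent.P269CA

open Set Filter MeasureTheory Vale.Agent.P272.K MvPolynomial
open Vale.Agent.P269C (tau dd sl pb jac Po)
open Vale.Agent.P269CG (op dz_op dzb_op sm_op sm_diff op_congr op_congr' op_const tau_row)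
open Vale.Agent.P269CW (ph w1 w2 ANA)
open scoped Topology ContDiff

/-- `∂ ∂̄ u` -/
def La (u : Cm 1 → ℝ) : Cm 1 → ℂ := op (-Complex.I) 0 (op Complex.I 0 fun y => (u y : ℂ))

theorem tau_X : tau (X (0, 0) : Po 1) = 1 / Real.pi := by
  simp [tau, coeff_X']

theorem tau_dd1 (u : Cm 1 → ℝ) (t : Cm 1) : tau (dd u t) = La u t / Real.pi := by
  have := P269CL.tau_dd u t 1
  simp only [mul_one, Fin.sum_univ_one, tau_X] at this
  rw [this, La, ← dz_op, ← dzb_op]
  simp only [cHess, Matrix.of_apply]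
  ring

theorem tau_neg (P : Po 1) : tau (-P) = -tau P := map_neg (P269CL.tauL 1) P

theorem sm_op' {f : Cm 1 → ℂ} (h : ContDiff ℝ ∞ f) (c : ℂ) : ContDiff ℝ ∞ (op c 0 f) :=
  contDiff_iff_contDiffAt.2 fun _ => sm_op h.contDiffAt

theorem hcs_op {f : Cm 1 → ℂ} (h : HasCompactSupport f) (c : ℂ) :
    HasCompactSupport (op c 0 f) := by
  refine h.mono' fun x hx => ?_
  by_contra hc
  apply hx
  rw [op_congr (notMem_tsupport_iff_eventuallyEq.1 hc)]
  exact op_const 0

theorem ibp {f g : Cm 1 → ℂ} (hf : ContDiff ℝ ∞ f) (hc : HasCompactSupport f)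
    (hg : ContDiff ℝ ∞ g) (c : ℂ) :
    ∫ x, f x * op c 0 g x = -∫ x, op c 0 f x * g x := by
  have c1 : ∀ {u : Cm 1 → ℂ}, ContDiff ℝ ∞ u → ∀ v, Continuous fun x => fderiv ℝ u x v :=
    fun hu v => (hu.continuous_fderiv (by simp)).clm_apply continuous_const
  have i1 : ∀ v, Integrable fun x => fderiv ℝ f x v * g x := fun v =>
    ((c1 hf v).mul hg.continuous).integrable_of_hasCompactSupport
      (hc.fderiv_apply ℝ v).mul_right
  have i2 : ∀ v, Integrable fun x => f x * fderiv ℝ g x v := fun v =>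
    (hf.continuous.mul (c1 hg v)).integrable_of_hasCompactSupport hc.mul_right
  have h : ∀ v, ∫ x, f x * fderiv ℝ g x v = -∫ x, fderiv ℝ f x v * g x := fun v =>
    integral_mul_fderiv_eq_neg_fderiv_mul_of_integrable (i1 v) (i2 v)
      ((hf.continuous.mul hg.continuous).integrable_of_hasCompactSupport hc.mul_right)
      (fun x _ => sm_diff hf.contDiffAt) (fun x _ => sm_diff hg.contDiffAt)
  have e1 : ∀ x, f x * op c 0 g x = 2⁻¹ * (f x * fderiv ℝ g x (Pi.single 0 1)) +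
      (2⁻¹ * c) * (f x * fderiv ℝ g x (Pi.single 0 Complex.I)) := fun x => by
    simp only [op, smul_eq_mul]; ring
  have e2 : ∀ x, op c 0 f x * g x = 2⁻¹ * (fderiv ℝ f x (Pi.single 0 1) * g x) +
      (2⁻¹ * c) * (fderiv ℝ f x (Pi.single 0 Complex.I) * g x) := fun x => by
    simp only [op, smul_eq_mul]; ring
  simp only [e1, e2]
  rw [integral_add ((i2 _).const_mul _) ((i2 _).const_mul _),
    integral_add ((i1 _).const_mul _) ((i1 _).const_mul _), integral_const_mul, integral_const_mul,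
    integral_const_mul, integral_const_mul, h, h]
  ring

/-- the cut off -/
def chi (z : Cm 1) : ℝ := Real.smoothTransition ((2 - ‖z 0‖ ^ 6) / (‖z 0‖ ^ 6 + 1))

theorem sm_sq : ContDiff ℝ ∞ fun z : Cm 1 => ‖z 0‖ ^ 2 :=
  (contDiff_norm_sq ℝ (E := ℂ)).comp (contDiff_apply ℝ ℂ 0)

theorem sm_chi : ContDiff ℝ ∞ chi := by
  have h : ContDiff ℝ ∞ fun z : Cm 1 => ‖z 0‖ ^ 6 := by
    have := sm_sq.pow 3
    simpa only [← pow_mul] using this
  refine Real.smoothTransition.contDiff.comp ((contDiff_const.sub h).div (h.add contDiff_const) ?_)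
  intro z; positivity

theorem nrm (z : Cm 1) : ‖z‖ = ‖z 0‖ := by
  apply le_antisymm _ (norm_le_pi_norm z 0)
  rw [pi_norm_le_iff_of_nonneg (norm_nonneg _)]
  intro i; rw [Subsingleton.elim i 0]

theorem hcs_chi : HasCompactSupport chi := by
  refine HasCompactSupport.intro (isCompact_closedBall (0 : Cm 1) 2) fun z hz => ?_
  rw [mem_closedBall_zero_iff, not_le, nrm] at hz
  refine Real.smoothTransition.zero_of_nonpos (div_nonpos_of_nonpos_of_nonneg ?_ (by positivity))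
  have : (2 : ℝ) ^ 6 ≤ ‖z 0‖ ^ 6 := pow_le_pow_left₀ (by norm_num) hz.le 6
  linarith

theorem chi_one {z : Cm 1} (h : ‖z 0‖ < 1 / 2) : chi z = 1 := by
  refine Real.smoothTransition.one_of_one_le ?_
  have : ‖z 0‖ ^ 6 ≤ (1 / 2) ^ 6 := pow_le_pow_left₀ (norm_nonneg _) h.le 6
  rw [le_div_iff₀ (by positivity)]
  linarith

theorem sm_c {u : Cm 1 → ℝ} (h : ContDiff ℝ ∞ u) : ContDiff ℝ ∞ fun y => (u y : ℂ) :=
  Complex.ofRealCLM.contDiff.comp h

theorem hcs_chi' : HasCompactSupport fun y => (chi y : ℂ) :=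
  hcs_chi.comp_left (g := fun x : ℝ => (x : ℂ)) Complex.ofReal_zero

/-- `∂̄ ∂` of the cut off -/
def kap : Cm 1 → ℂ := op Complex.I 0 (op (-Complex.I) 0 fun y => (chi y : ℂ))

theorem kap_cont : Continuous kap := (sm_op' (sm_op' (sm_c sm_chi) _) _).continuous

theorem kap_hcs : HasCompactSupport kap := hcs_op (hcs_op hcs_chi' _) _

theorem kap_zero {z : Cm 1} (h : ‖z 0‖ < 1 / 2) : kap z = 0 := by
  have h1 : (fun y => (chi y : ℂ)) =ᶠ[𝓝 z] fun _ => 1 := by
    have : ∀ᶠ y : Cm 1 in 𝓝 z, ‖y 0‖ < 1 / 2 :=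
      (continuous_apply 0).norm.continuousAt.eventually_lt continuousAt_const h
    exact this.mono fun y hy => by simp [chi_one hy]
  have h2 : op (-Complex.I) 0 (fun _ : Cm 1 => (1 : ℂ)) = fun _ => 0 := funext fun _ => op_const 1
  rw [kap, op_congr (op_congr' h1), h2]
  exact op_const 0

theorem green {u : Cm 1 → ℝ} (h : ContDiff ℝ ∞ u) :
    ∫ z, (chi z : ℂ) * La u z = ∫ z, kap z * u z := by
  rw [La, ibp (sm_c sm_chi) hcs_chi' (sm_op' (sm_c h) _),
    ibp (sm_op' (sm_c sm_chi) _) (hcs_op hcs_chi' _) (sm_c h), neg_neg, kap]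

theorem kap_int {u : Cm 1 → ℝ} (h : Continuous u) : Integrable fun z => kap z * u z :=
  (kap_cont.mul (Complex.continuous_ofReal.comp h)).integrable_of_hasCompactSupport
    kap_hcs.mul_right

theorem La_const (c : ℝ) (z : Cm 1) : La (fun _ => c) z = 0 := by
  have h2 : op Complex.I 0 (fun _ : Cm 1 => (c : ℂ)) = fun _ => 0 := funext fun _ => op_const _
  rw [La, h2]; exact op_const 0

theorem kap_const (c : ℝ) : ∫ z, kap z * (c : ℂ) = 0 := by
  rw [← green (u := fun _ => c) contDiff_const]; simp [La_const]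

/-- the regularised logarithm -/
def lg (ε : ℝ) (z : Cm 1) : ℝ := Real.log (‖z 0‖ ^ 2 + ε)

theorem sm_lg {ε : ℝ} (h : 0 < ε) : ContDiff ℝ ∞ (lg ε) :=
  (sm_sq.add contDiff_const).log fun z => by positivity

theorem lim_lg : Tendsto (fun ε => (∫ z, kap z * lg ε z) / Real.pi) (𝓝[>] 0) (𝓝 1) := by
  have h := (P269CL.pl_of tau_row 0 chi (fun _ => 0) (fun _ => 1) sm_chi hcs_chi
    (fun y _ => ⟨contDiffAt_const, fun m => contDiffAt_const⟩)).1
  have h1 : ∀ b : Cm 0, chi (sl b) = 1 := fun b => chi_one (by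
    have : sl b 0 = 0 := P269CL.sl_last b
    rw [this]; simp)
  have h2 : tau (1 : Po 0) = 1 := by simp [tau]
  have h3 : (volume : Measure (Cm 0)).real univ = 1 := by
    simp [Measure.real, volume_pi]
  simp only [mul_one, Real.exp_zero, map_one, h1, h2, tau_dd1, La_const, zero_div, mul_zero,
    integral_zero, zero_add, Complex.ofReal_one, integral_const, h3, one_smul] at h
  refine h.congr' (eventually_mem_nhdsWithin.mono fun ε hε => ?_)
  simp only [← mul_div_assoc]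
  rw [integral_div, ← green (sm_lg hε)]
  rfl

theorem op_scale {f : Cm 1 → ℂ} (c : ℂ) (l : ℝ) (z : Cm 1) :
    op c 0 (fun x => f (l • x)) z = l * op c 0 f (l • z) := by
  simp only [op, fderiv_comp_smul, ContinuousLinearMap.smul_apply, smul_eq_mul,
    Complex.real_smul]
  ring

theorem La_scale {u : Cm 1 → ℝ} (h : ContDiff ℝ ∞ u) (l : ℝ) (z : Cm 1) :
    La (fun x => u (l • x)) z = l ^ 2 * La u (l • z) := by
  have h1 : (op Complex.I 0 fun y => (u (l • y) : ℂ)) =
      fun y => (fun x => l * op Complex.I 0 (fun y => (u y : ℂ)) x) (l • y) :=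
    funext fun y => op_scale (f := fun y => (u y : ℂ)) _ l y
  rw [La, h1, op_scale (f := fun x => l * op Complex.I 0 (fun y => (u y : ℂ)) x), La]
  have hd : DifferentiableAt ℝ (op Complex.I 0 fun y => (u y : ℂ)) (l • z) :=
    sm_diff (sm_op' (sm_c h) _).contDiffAt
  generalize (op Complex.I 0 fun y => (u y : ℂ)) = g at hd
  simp only [op, fderiv_const_mul hd, ContinuousLinearMap.smul_apply, smul_eq_mul]
  ring

theorem first_eq {u : Cm 1 → ℝ} (h : ContDiff ℝ ∞ u) {l : ℝ} (hl : 0 < l) :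
    ∫ t, (w1 (l ^ 6) t : ℂ) * tau (-dd u t) =
      -(1 / 6) * ((∫ z, kap z * u (l • z)) / Real.pi) := by
  have h1 := Measure.integral_comp_smul (volume : Measure (Cm 1))
    (fun t => (w1 (l ^ 6) t : ℂ) * tau (-dd u t)) l
  have h2 : Module.finrank ℝ (Cm 1) = 2 := by simp [Module.finrank_pi_fintype]
  have hl' : (l : ℂ) ≠ 0 := by exact_mod_cast hl.ne'
  have hp : (Real.pi : ℂ) ≠ 0 := by exact_mod_cast Real.pi_ne_zero
  have h3 : ∀ z : Cm 1, (w1 (l ^ 6) (l • z) : ℂ) * tau (-dd u (l • z)) =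
      (-(1 / 6) / (l ^ 2 * Real.pi)) * (chi z * La (fun x => u (l • x)) z) := fun z => by
    have : w1 (l ^ 6) (l • z) = chi z / 6 := by
      simp only [w1, ph, chi, Pi.smul_apply, norm_smul, Real.norm_eq_abs, abs_of_pos hl, norm_one]
      congr 2
      field_simp
    rw [this, tau_neg, tau_dd1, La_scale h]
    push_cast; field_simp
  simp only [h3] at h1
  rw [integral_const_mul, green (u := fun x => u (l • x)) (h.comp (contDiff_id.const_smul l)), h2,
    abs_of_pos (by positivity), Complex.real_smul] at h1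
  push_cast at h1
  have h4 : (∫ t, (w1 (l ^ 6) t : ℂ) * tau (-dd u t)) =
      l ^ 2 * (((l : ℂ) ^ 2)⁻¹ * ∫ t, (w1 (l ^ 6) t : ℂ) * tau (-dd u t)) := by field_simp
  rw [h4, ← h1]
  field_simp

theorem unif {H₁ H₂ : Cm 1 → ℝ} (h2 : ∀ t, 0 < H₂ t ∧ ContDiffAt ℝ ∞ H₂ t)
    (h : ∀ (s : ℂ) (t t' : Cm 1), s ^ 4 * t 0 = 1 → t' 0 = s ^ 6 → H₁ t = ‖s‖ ^ 2 * H₂ t')
    {η : ℝ} (hη : 0 < η) : ∀ᶠ l : ℝ in atTop, ∀ z : Cm 1, 1 / 2 ≤ ‖z 0‖ →
      |Real.log (H₁ (l • z)) + 1 / 4 * lg l⁻¹ z + (1 / 2 * Real.log l - Real.log (H₂ 0))| ≤ η := by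
  have hc : ContinuousAt (fun t => Real.log (H₂ t)) 0 := (h2 0).2.continuousAt.log (h2 0).1.ne'
  obtain ⟨δ, hδ, hd⟩ := Metric.continuousAt_iff.1 hc (η / 2) (by positivity)
  filter_upwards [eventually_ge_atTop 2, eventually_gt_atTop (2 / δ),
    eventually_ge_atTop (2 / η)] with l l1 l2 l3 z hz
  have hl : 0 < l := by linarith
  have hz0 : 0 < ‖z 0‖ := by linarith
  have hne : ((l • z) 0) ≠ 0 := by
    rw [← norm_pos_iff, Pi.smul_apply, norm_smul, Real.norm_eq_abs, abs_of_pos hl]; positivity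
  obtain ⟨s, hs⟩ := IsAlgClosed.exists_pow_nat_eq ((l • z) 0)⁻¹ (n := 4) (by norm_num)
  have hs1 : s ^ 4 * (l • z) 0 = 1 := by rw [hs, inv_mul_cancel₀ hne]
  have hn : ‖s‖ ^ 4 * (l * ‖z 0‖) = 1 := by
    have := congrArg norm hs1
    rwa [norm_mul, norm_pow, Pi.smul_apply, norm_smul, Real.norm_eq_abs, abs_of_pos hl,
      norm_one] at this
  have hs0 : 0 < ‖s‖ := by
    rcases (norm_nonneg s).eq_or_lt with h0 | h0
    · rw [← h0] at hn; simp at hn
    · exact h0
  have h4 : ‖s‖ ^ 4 * l ≤ 2 := by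
    have : 0 ≤ ‖s‖ ^ 4 * l := by positivity
    nlinarith
  have h5 : ‖s‖ ^ 4 ≤ 1 := by
    have : 0 ≤ ‖s‖ ^ 4 := by positivity
    nlinarith
  have h6 : ‖s‖ ≤ 1 := (pow_le_one_iff_of_nonneg hs0.le (by norm_num)).1 h5
  have h7 : ‖s‖ ^ 6 < δ := by
    have a1 : ‖s‖ ^ 6 ≤ ‖s‖ ^ 4 := pow_le_pow_of_le_one hs0.le h6 (by norm_num)
    rw [div_lt_iff₀ hδ] at l2
    by_contra hc
    push Not at hc
    nlinarith
  have h8 := hd (x := fun _ => s ^ 6) (by rw [dist_zero_right, nrm, norm_pow]; exact h7)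
  rw [Real.dist_eq] at h8
  have h9 : 4 * Real.log ‖s‖ + (Real.log l + Real.log ‖z 0‖) = 0 := by
    have := congrArg Real.log hn
    rw [Real.log_mul (by positivity) (by positivity), Real.log_mul hl.ne' hz0.ne', Real.log_pow,
      Real.log_one] at this
    exact_mod_cast this
  have h10 : lg l⁻¹ z = 2 * Real.log ‖z 0‖ + Real.log (1 + l⁻¹ / ‖z 0‖ ^ 2) := by
    have : ‖z 0‖ ^ 2 + l⁻¹ = ‖z 0‖ ^ 2 * (1 + l⁻¹ / ‖z 0‖ ^ 2) := by field_simp
    rw [lg, this, Real.log_mul (by positivity) (by positivity), Real.log_pow]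
    norm_num
  have h11 : 0 ≤ Real.log (1 + l⁻¹ / ‖z 0‖ ^ 2) :=
    Real.log_nonneg (le_add_of_nonneg_right (by positivity))
  have h12 : Real.log (1 + l⁻¹ / ‖z 0‖ ^ 2) ≤ 2 * η := by
    have a1 := Real.log_le_sub_one_of_pos (x := 1 + l⁻¹ / ‖z 0‖ ^ 2) (by positivity)
    have a2 : l⁻¹ ≤ η / 2 := by
      rw [inv_le_comm₀ hl (by positivity), inv_div]; exact l3
    have a3 : l⁻¹ / ‖z 0‖ ^ 2 ≤ 2 * η := by
      rw [div_le_iff₀ (by positivity)]
      have : 1 / 4 ≤ ‖z 0‖ ^ 2 := by nlinarith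
      nlinarith
    linarith
  rw [h s _ (fun _ => s ^ 6) hs1 rfl, Real.log_mul (by positivity) (h2 _).1.ne', Real.log_pow, h10]
  rw [abs_lt] at h8
  rw [abs_le]
  push_cast
  constructor <;> linarith [h8.1, h8.2]

theorem first {H₁ H₂ : Cm 1 → ℝ} (h1 : ∀ t, 0 < H₁ t ∧ ContDiffAt ℝ ∞ H₁ t)
    (h2 : ∀ t, 0 < H₂ t ∧ ContDiffAt ℝ ∞ H₂ t)
    (h : ∀ (s : ℂ) (t t' : Cm 1), s ^ 4 * t 0 = 1 → t' 0 = s ^ 6 → H₁ t = ‖s‖ ^ 2 * H₂ t') :
    Tendsto (fun R : ℝ => ∫ t, (w1 R t : ℂ) * tau (-dd (fun x => Real.log (H₁ x)) t)) atTop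
      (𝓝 (1 / 24)) := by
  have hu : ContDiff ℝ ∞ fun x => Real.log (H₁ x) :=
    contDiff_iff_contDiffAt.2 fun t => (h1 t).2.log (h1 t).1.ne'
  have a1 : Tendsto (fun l : ℝ => (∫ z, kap z * (Real.log (H₁ (l • z)) : ℝ)) +
      1 / 4 * ∫ z, kap z * lg l⁻¹ z) atTop (𝓝 0) := by
    have ik : Integrable fun z => ‖kap z‖ :=
      kap_cont.norm.integrable_of_hasCompactSupport kap_hcs.norm
    have k0 : 0 ≤ ∫ z, ‖kap z‖ := integral_nonneg fun z => norm_nonneg _
    rw [Metric.tendsto_nhds]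
    intro ε hε
    have hη : 0 < ε / ((∫ z, ‖kap z‖) + 1) := by positivity
    filter_upwards [unif h2 h hη, eventually_gt_atTop 0] with l hl l0
    have i1 : Integrable fun z => kap z * (Real.log (H₁ (l • z)) : ℝ) :=
      kap_int (hu.continuous.comp (continuous_const_smul l))
    have i2 : Integrable fun z => kap z * lg l⁻¹ z := kap_int (sm_lg (inv_pos.2 l0)).continuous
    have i3 : Integrable fun z => kap z * ((1 / 2 * Real.log l - Real.log (H₂ 0) : ℝ) : ℂ) :=
      kap_int continuous_const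
    have i4 : Integrable fun z => kap z * (Real.log (H₁ (l • z)) : ℝ) +
        1 / 4 * (kap z * lg l⁻¹ z) := i1.add (i2.const_mul _)
    rw [dist_zero_right, ← add_zero (_ + _), ← kap_const (1 / 2 * Real.log l - Real.log (H₂ 0)),
      ← integral_const_mul, ← integral_add i1 (i2.const_mul _),
      ← integral_add i4 i3]
    refine lt_of_le_of_lt (norm_integral_le_of_norm_le
      (ik.const_mul (ε / ((∫ z, ‖kap z‖) + 1))) (Eventually.of_forall fun z => ?_)) ?_
    · by_cases hz : ‖z 0‖ < 1 / 2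
      · simp [kap_zero hz]
      · have e : kap z * (Real.log (H₁ (l • z)) : ℝ) + 1 / 4 * (kap z * lg l⁻¹ z) +
            kap z * ((1 / 2 * Real.log l - Real.log (H₂ 0) : ℝ) : ℂ) =
            kap z * ((Real.log (H₁ (l • z)) + 1 / 4 * lg l⁻¹ z +
              (1 / 2 * Real.log l - Real.log (H₂ 0)) : ℝ) : ℂ) := by
          simp only [Complex.ofReal_add, Complex.ofReal_mul, Complex.ofReal_div,
            Complex.ofReal_one, Complex.ofReal_ofNat, Complex.ofReal_sub]
          ring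
        rw [e, norm_mul, Complex.norm_real, Real.norm_eq_abs, mul_comm]
        exact mul_le_mul_of_nonneg_right (hl z (not_lt.1 hz)) (norm_nonneg _)
    · rw [integral_const_mul, div_mul_eq_mul_div, div_lt_iff₀ (by positivity)]
      nlinarith
  have a2 := lim_lg.comp tendsto_inv_atTop_nhdsGT_zero
  have a3 := ((a1.div_const (Real.pi : ℂ)).sub (a2.const_mul (1 / 4))).const_mul (-(1 / 6))
  have a4 := a3.comp (tendsto_rpow_atTop (y := ((6 : ℕ) : ℝ)⁻¹) (by positivity))
  have e : -(1 / 6 : ℂ) * (0 / Real.pi - 1 / 4 * 1) = 1 / 24 := by ring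
  rw [e] at a4
  refine a4.congr' ((eventually_gt_atTop 0).mono fun R hR => ?_)
  have e2 : (R ^ ((6 : ℕ) : ℝ)⁻¹) ^ 6 = R := Real.rpow_inv_natCast_pow hR.le (by norm_num)
  have e3 := first_eq hu (Real.rpow_pos_of_pos hR ((6 : ℕ) : ℝ)⁻¹)
  rw [e2] at e3
  simp only [Function.comp]
  rw [e3]
  ring

theorem second {u : Cm 1 → ℝ} (hu : ContDiff ℝ ∞ u) :
    Tendsto (fun R : ℝ => ∫ t, (w2 R t : ℂ) * tau (-dd u t)) atTop (𝓝 0) := by
  have hT : Continuous fun t => tau (-dd u t) := by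
    simp only [tau_neg, tau_dd1]
    exact ((sm_op' (sm_op' (sm_c hu) _) _).continuous.div_const _).neg
  have hz : ∀ R (t : Cm 1), 2 ≤ R * ‖t 0‖ ^ 4 → w2 R t = 0 := fun R t h => by
    have : ph R 1 (t 0) = 1 := by
      refine Real.smoothTransition.one_of_one_le ?_
      rw [norm_one, one_pow, le_div_iff₀ (by linarith)]
      linarith
    rw [w2, this]; simp
  have hb : ∀ R (t : Cm 1), ‖(w2 R t : ℂ)‖ ≤ 1 := fun R t => by
    have a1 : 0 ≤ ph R 1 (t 0) := Real.smoothTransition.nonneg _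
    have a2 : ph R 1 (t 0) ≤ 1 := Real.smoothTransition.le_one _
    rw [Complex.norm_real, Real.norm_eq_abs, abs_le, w2]
    constructor <;> linarith
  have h0 : (0 : ℂ) = ∫ _ : Cm 1, (0 : ℂ) := by simp
  rw [h0]
  refine tendsto_integral_filter_of_dominated_convergence
    ((Metric.closedBall (0 : Cm 1) 1).indicator fun t => ‖tau (-dd u t)‖) ?_ ?_ ?_ ?_
  · filter_upwards [eventually_ge_atTop 0] with R hR
    refine (Continuous.mul (Complex.continuous_ofReal.comp ?_) hT).aestronglyMeasurable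
    refine (continuous_const.sub (Real.smoothTransition.continuous.comp ?_)).div_const _
    refine Continuous.div (by fun_prop) (by fun_prop) fun t => ?_
    rw [norm_one]; positivity
  · filter_upwards [eventually_ge_atTop 2] with R hR
    refine Eventually.of_forall fun t => ?_
    by_cases ht : t ∈ Metric.closedBall (0 : Cm 1) 1
    · rw [indicator_of_mem ht, norm_mul]
      exact mul_le_of_le_one_left (norm_nonneg _) (hb R t)
    · rw [indicator_of_notMem ht]
      rw [mem_closedBall_zero_iff, not_le, nrm] at ht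
      have : 1 ≤ ‖t 0‖ ^ 4 := one_le_pow₀ ht.le
      rw [hz R t (by nlinarith)]; simp
  · exact (hT.norm.continuousOn.integrableOn_compact (isCompact_closedBall _ _)).integrable_indicator
      Metric.isClosed_closedBall.measurableSet
  · filter_upwards [compl_mem_ae_iff.2 (measure_singleton (0 : Cm 1))] with t ht
    have h1 : 0 < ‖t 0‖ := by rw [← nrm]; exact norm_pos_iff.2 ht
    refine tendsto_const_nhds.congr' ?_
    filter_upwards [eventually_ge_atTop (2 / ‖t 0‖ ^ 4)] with R hR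
    rw [div_le_iff₀ (by positivity)] at hR
    rw [hz R t hR]; simp

theorem ana : ANA := by
  intro H₁ H₂ h1 h2 h
  have := (first h1 h2 h).add (second (u := fun x => Real.log (H₂ x))
    (contDiff_iff_contDiffAt.2 fun t => (h2 t).2.log (h2 t).1.ne'))
  rwa [add_zero] at this

end Vale.Agent.P269CA
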